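import Mathlib

namespace Vale.Agent.Lib.P015

open GaussianInt

/-- A Gaussian prime divides some rational prime. -/
theorem exists_nat_prime_dvd {z : GaussianInt} (hz : Prime z) :
    ∃ p : ℕ, p.Prime ∧ z ∣ (p : GaussianInt) := by
  have hz0 : z ≠ 0 := hz.ne_zero
  have hn : z ∣ ((z.norm.natAbs : ℕ) : GaussianInt) := by
    have h1 : ((z.norm.natAbs : ℕ) : GaussianInt) = z * star z := by
      have h2 : ((z.norm.natAbs : ℕ) : GaussianInt) = ((z.norm : ℤ) : GaussianInt) := by
        have : ((z.norm.natAbs : ℕ) : ℤ) = z.norm := abs_natCast_norm z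
        rw [← this]; simp
      rw [h2, Zsqrtd.norm_eq_mul_conj]
    rw [h1]; exact dvd_mul_right _ _
  have hpos : z.norm.natAbs ≠ 0 := by
    intro h
    apply hz0
    have : z.norm = 0 := by simpa using h
    exact norm_eq_zero.mp this
  have key : ∀ n : ℕ, n ≠ 0 → z ∣ (n : GaussianInt) → ∃ p : ℕ, p.Prime ∧ z ∣ (p : GaussianInt) := by
    intro n
    induction n using Nat.strong_induction_on with
    | _ n ih =>
      intro hn0 hdvd
      by_cases h1 : n = 1
      · subst h1
        exfalso
        apply hz.not_isUnit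
        exact isUnit_of_dvd_one (by simpa using hdvd)
      · obtain ⟨p, hp, hpn⟩ := Nat.exists_prime_and_dvd h1
        obtain ⟨m, rfl⟩ := hpn
        have : z ∣ (p : GaussianInt) * (m : GaussianInt) := by simpa using hdvd
        rcases hz.dvd_or_dvd this with h | h
        · exact ⟨p, hp, h⟩
        · have hm0 : m ≠ 0 := by
            rintro rfl; simp at hn0
          have hlt : m < p * m := by
            have := hp.two_le
            nlinarith [Nat.pos_of_ne_zero hm0]
          exact ih m hlt hm0 h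
  exact key _ hpos hn

/-- If `1 < m`, `m ∣ N(z)` and `m ^ 2 < N(z)` then `z` is not a Gaussian prime. -/
theorem not_prime_of_dvd_norm {z : GaussianInt} {m : ℤ} (h1 : 1 < m) (hm : m ∣ z.norm)
    (hlt : m ^ 2 < z.norm) : ¬ Prime z := by
  intro hz
  obtain ⟨p, hp, hzp⟩ := exists_nat_prime_dvd hz
  have hnorm : z.norm ∣ (p : ℤ) * p := by
    obtain ⟨w, hw⟩ := hzp
    have := congrArg Zsqrtd.norm hw
    rw [Zsqrtd.norm_natCast, Zsqrtd.norm_mul] at this
    exact ⟨w.norm, this⟩
  have hmp : m ∣ (p : ℤ) * p := hm.trans hnorm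
  have hpI : Prime (p : ℤ) := Nat.prime_iff_prime_int.mp hp
  -- p divides m
  have hpm : (p : ℤ) ∣ m := by
    by_contra hnot
    have hcop : IsCoprime m (p : ℤ) := by
      have := (hpI.coprime_iff_not_dvd).mpr hnot
      exact this.symm
    have h2 : m ∣ (p : ℤ) := hcop.dvd_of_dvd_mul_right hmp
    have h3 : m ∣ 1 := by
      have := hcop.dvd_of_dvd_mul_right (by simpa using h2 : m ∣ 1 * (p : ℤ))
      exact this
    have := Int.le_of_dvd one_pos h3
    omega
  have hple : (p : ℤ) ≤ m := Int.le_of_dvd (by omega) hpm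
  have hzle : z.norm ≤ (p : ℤ) * p := by
    apply Int.le_of_dvd _ hnorm
    have := hp.pos
    positivity
  have hp0 : (0 : ℤ) ≤ p := by positivity
  nlinarith

end Vale.Agent.Lib.P015
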