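import Mathlib
import Vale.Agent.Lib.P015.NotPrime

namespace Vale.Agent.Lib.P015

open GaussianInt

/-- the predicate selecting split primes larger than `N` -/
def splitPred (N : ℕ) (p : ℕ) : Prop := p.Prime ∧ p % 4 = 1 ∧ N < p

theorem splitPred_infinite (N : ℕ) : (Set.ofPred (splitPred N)).Infinite := by
  apply Set.infinite_of_forall_exists_gt
  intro a
  obtain ⟨p, hp, hlt, hmod⟩ := Nat.exists_prime_gt_modEq_one (k := 4) (max a N) (by norm_num)
  refine ⟨p, ⟨hp, ?_, ?_⟩, ?_⟩
  · have : p % 4 = 1 % 4 := hmod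
    simpa using this
  · exact lt_of_le_of_lt (le_max_right _ _) hlt
  · exact lt_of_le_of_lt (le_max_left _ _) hlt

/-- Local solvability: for a split prime `p > N(g)` there is `t` with `p ∣ N(z + t g + Q e)`
whenever `p ∣ Q`. -/
theorem local_solution (g z : GaussianInt) (hg : g ≠ 0) (p : ℕ) (hp : p.Prime) (h4 : p % 4 = 1)
    (hN : g.norm < p) :
    ∃ a : ℕ, ∀ t : ℤ, (t : ZMod p) = (a : ZMod p) → ∀ x y : ℤ,
      (p : ℤ) ∣ x - (z.re + t * g.re) → (p : ℤ) ∣ y - (z.im + t * g.im) →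
      (p : ℤ) ∣ x * x + y * y := by
  have : Fact p.Prime := ⟨hp⟩
  obtain ⟨J, hJ⟩ : IsSquare (-1 : ZMod p) := by
    rw [ZMod.exists_sq_eq_neg_one_iff]; omega
  set G : ZMod p := (g.re : ZMod p) + J * (g.im : ZMod p) with hG
  have hGne : G ≠ 0 := by
    intro h0
    have h1 : ((g.norm : ℤ) : ZMod p) = G * ((g.re : ZMod p) - J * (g.im : ZMod p)) := by
      rw [Zsqrtd.norm_def]
      push_cast
      have : J * J = -1 := hJ.symm
      linear_combination ((g.im : ZMod p) * (g.im : ZMod p)) * this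
    rw [h0, zero_mul, ZMod.intCast_zmod_eq_zero_iff_dvd] at h1
    have hpos : 0 < g.norm := norm_pos.mpr hg
    have := Int.le_of_dvd hpos h1
    omega
  refine ⟨(-(((z.re : ZMod p)) + J * (z.im : ZMod p)) / G).val, ?_⟩
  intro t ht x y hx hy
  rw [ZMod.natCast_zmod_val] at ht
  rw [← ZMod.intCast_zmod_eq_zero_iff_dvd] at hx hy ⊢
  push_cast at hx hy ⊢
  have hx' : (x : ZMod p) = z.re + t * g.re := by linear_combination hx
  have hy' : (y : ZMod p) = z.im + t * g.im := by linear_combination hy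
  have hkey : (x : ZMod p) + J * y = 0 := by
    rw [hx', hy', ht]
    field_simp
    rw [hG]
    ring
  have : J * J = -1 := hJ.symm
  linear_combination ((x : ZMod p) - J * y) * hkey + (y : ZMod p) * y * this


theorem norm_eq' (z : GaussianInt) : z.norm = z.re * z.re + z.im * z.im := by
  rw [Zsqrtd.norm_def]; ring

/-- Global barrier lemma: a full residue class (mod `Q`, in both coordinates) of centres, containing
a point `z0 + t0 g` of the lattice line through `z0` with direction `g`, all of whose members of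
large norm are centres of Gaussian-prime-free discs of squared radius `K`. -/
theorem exists_barrier_class (g z0 : GaussianInt) (hg : g ≠ 0) (K : ℕ) :
    ∃ Q : ℤ, 0 < Q ∧ ∃ t0 : ℤ, ∀ c : GaussianInt,
      (Q ∣ c.re - (z0.re + t0 * g.re)) → (Q ∣ c.im - (z0.im + t0 * g.im)) →
      2 * Q ^ 2 + 2 * K < c.norm →
      ∀ w : GaussianInt, w.norm ≤ K → ¬ Prime (c + w) := by
  classical
  set N : ℕ := g.norm.natAbs with hN
  have hNg : (N : ℤ) = g.norm := abs_natCast_norm g
  let idx : GaussianInt → ℕ := fun w => Encodable.encode (w.re, w.im)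
  have hidx : Function.Injective idx := by
    intro a b hab
    have := Encodable.encode_injective hab
    simp only [Prod.mk.injEq] at this
    exact Zsqrtd.ext this.1 this.2
  let P : GaussianInt → ℕ := fun w => Nat.nth (splitPred N) (idx w)
  have hP : ∀ w, splitPred N (P w) := fun w => Nat.nth_mem_of_infinite (splitPred_infinite N) _
  have hPinj : Function.Injective P := (Nat.nth_injective (splitPred_infinite N)).comp hidx
  let S : Finset GaussianInt :=
    ((Finset.Icc (-(K : ℤ)) K) ×ˢ (Finset.Icc (-(K : ℤ)) K)).image (fun q => (⟨q.1, q.2⟩ : GaussianInt))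
  have hS : ∀ w : GaussianInt, w.norm ≤ K → w ∈ S := by
    intro w hw
    rw [norm_eq'] at hw
    simp only [S, Finset.mem_image, Finset.mem_product, Finset.mem_Icc, Prod.exists]
    refine ⟨w.re, w.im, ⟨⟨?_, ?_⟩, ⟨?_, ?_⟩⟩, rfl⟩ <;> nlinarith [sq_nonneg (w.re), sq_nonneg (w.im),
      sq_nonneg (w.re - 1), sq_nonneg (w.re + 1), sq_nonneg (w.im - 1), sq_nonneg (w.im + 1)]
  have hloc : ∀ w : GaussianInt, ∃ a : ℕ, ∀ t : ℤ, (t : ZMod (P w)) = (a : ZMod (P w)) → ∀ x y : ℤ,
      ((P w : ℕ) : ℤ) ∣ x - ((z0 + w).re + t * g.re) → ((P w : ℕ) : ℤ) ∣ y - ((z0 + w).im + t * g.im) →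
      ((P w : ℕ) : ℤ) ∣ x * x + y * y := by
    intro w
    apply local_solution g (z0 + w) hg (P w) (hP w).1 (hP w).2.1
    rw [← hNg]
    exact_mod_cast (hP w).2.2
  choose a ha using hloc
  have hs : ∀ i ∈ S, P i ≠ 0 := fun i _ => (hP i).1.ne_zero
  have hpp : Set.Pairwise (S : Set GaussianInt) (Function.onFun Nat.Coprime P) := by
    intro i _ j _ hij
    exact (Nat.coprime_primes (hP i).1 (hP j).1).mpr (fun h => hij (hPinj h))
  obtain ⟨t0, ht0⟩ := Nat.chineseRemainderOfFinset a P S hs hpp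
  refine ⟨∏ w ∈ S, (P w : ℤ), ?_, (t0 : ℤ), ?_⟩
  · apply Finset.prod_pos
    intro i _
    exact_mod_cast (hP i).1.pos
  intro c hre him hbig w hw
  have hwS := hS w hw
  set Q : ℤ := ∏ w ∈ S, (P w : ℤ) with hQ
  have hQpos : 0 < Q := by
    apply Finset.prod_pos
    intro i _
    exact_mod_cast (hP i).1.pos
  have hdvdQ : (P w : ℤ) ∣ Q := Finset.dvd_prod_of_mem (fun w => (P w : ℤ)) hwS
  have hle : (P w : ℤ) ≤ Q := Int.le_of_dvd hQpos hdvdQ
  have h1 : (1 : ℤ) < P w := by exact_mod_cast (hP w).1.one_lt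
  have hcong : (((t0 : ℕ) : ℤ) : ZMod (P w)) = (a w : ZMod (P w)) := by
    have := (ZMod.natCast_eq_natCast_iff t0 (a w) (P w)).mpr (ht0 w hwS)
    simpa using this
  have hdvd := ha w (t0 : ℤ) hcong (c + w).re (c + w).im
    (by
      have : (c + w).re - ((z0 + w).re + (t0 : ℤ) * g.re) = c.re - (z0.re + (t0 : ℤ) * g.re) := by
        simp only [Zsqrtd.re_add]; ring
      rw [this]; exact hdvdQ.trans hre)
    (by
      have : (c + w).im - ((z0 + w).im + (t0 : ℤ) * g.im) = c.im - (z0.im + (t0 : ℤ) * g.im) := by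
        simp only [Zsqrtd.im_add]; ring
      rw [this]; exact hdvdQ.trans him)
  rw [← norm_eq'] at hdvd
  apply not_prime_of_dvd_norm h1 hdvd
  have hpar : c.norm ≤ 2 * (c + w).norm + 2 * w.norm := by
    simp only [norm_eq', Zsqrtd.re_add, Zsqrtd.im_add]
    nlinarith [sq_nonneg (c.re + 2 * w.re), sq_nonneg (c.im + 2 * w.im)]
  have : (P w : ℤ) ^ 2 ≤ Q ^ 2 := by
    apply pow_le_pow_left₀ (by omega) hle
  nlinarith

end Vale.Agent.Lib.P015
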