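import Mathlib

namespace Vale.Agent.Lib.P015

theorem step_pos (δ ε x0 : ℝ) (hδ : 0 < δ) (hδε : δ < ε) :
    ∃ j n0 : ℤ, 0 ≤ j ∧ |x0 + j * δ - n0| < ε := by
  refine ⟨⌈((⌈x0⌉ : ℝ) - x0) / δ⌉, ⌈x0⌉, ?_, ?_⟩
  · apply Int.ceil_nonneg
    apply div_nonneg _ hδ.le
    have := Int.le_ceil x0
    linarith
  · set j : ℤ := ⌈((⌈x0⌉ : ℝ) - x0) / δ⌉ with hj
    have h1 : ((⌈x0⌉ : ℝ) - x0) / δ ≤ j := Int.le_ceil _
    have h2 : (j : ℝ) < ((⌈x0⌉ : ℝ) - x0) / δ + 1 := Int.ceil_lt_add_one _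
    rw [div_le_iff₀ hδ] at h1
    have h3 : (j : ℝ) * δ < ((⌈x0⌉ : ℝ) - x0) + δ := by
      have : ((j : ℝ) - 1) < ((⌈x0⌉ : ℝ) - x0) / δ := by linarith
      rw [lt_div_iff₀ hδ] at this
      linarith
    rw [abs_lt]
    constructor <;> linarith

theorem step_ne (δ ε x0 : ℝ) (hδ : δ ≠ 0) (hδε : |δ| < ε) :
    ∃ j n0 : ℤ, 0 ≤ j ∧ |x0 + j * δ - n0| < ε := by
  rcases lt_or_gt_of_ne hδ with h | h
  · obtain ⟨j, n0, hj, hh⟩ := step_pos (-δ) ε (-x0) (by linarith) (by rwa [abs_of_neg h] at hδε)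
    refine ⟨j, -n0, hj, ?_⟩
    rw [← abs_neg]
    push_cast
    convert hh using 2
    ring
  · exact step_pos δ ε x0 h (by rwa [abs_of_pos h] at hδε)

/-- One-sided Kronecker approximation. -/
theorem kronecker_one_sided (θ : ℝ) (hθ : Irrational θ) (γ ε : ℝ) (hε : 0 < ε) (M : ℤ) :
    ∃ m n : ℤ, M ≤ m ∧ |m * θ - n - γ| < ε := by
  obtain ⟨N, hN⟩ := exists_nat_one_div_lt hε
  obtain ⟨k, hk0, -, hk⟩ := Real.exists_nat_abs_mul_sub_round_le θ (Nat.succ_pos N)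
  set δ : ℝ := (k : ℝ) * θ - round ((k : ℝ) * θ) with hδ
  have hδne : δ ≠ 0 := by
    intro h0
    have h1 : (k : ℝ) * θ = ((round ((k : ℝ) * θ) : ℤ) : ℝ) := by linarith
    have hirr : Irrational ((k : ℝ) * θ) := by
      have := hθ.natCast_mul (m := k) (by omega)
      exact this
    exact hirr.ne_int _ h1
  have hδε : |δ| < ε := by
    refine lt_of_le_of_lt hk ?_
    push_cast
    have : (1 : ℝ) / ((N : ℝ) + 1 + 1) ≤ 1 / ((N : ℝ) + 1) := by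
      apply one_div_le_one_div_of_le
      · positivity
      · linarith
    linarith
  obtain ⟨j, n0, hj, hh⟩ := step_ne δ ε (M * θ - γ) hδne hδε
  refine ⟨M + j * k, n0 + j * round ((k : ℝ) * θ), ?_, ?_⟩
  · have : 0 ≤ j * (k : ℤ) := by positivity
    linarith
  · push_cast
    convert hh using 2
    rw [hδ]
    ring

end Vale.Agent.Lib.P015
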