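import Mathlib
import Vale.Agent.Lib.P015.Barrier
import Vale.Agent.Lib.P015.Kronecker

namespace Vale.Agent.Lib.P015

open GaussianInt Complex ComplexConjugate

/-- coordinates adapted to the line through `a` with unit direction `u` -/
noncomputable def phi (a u z : ℂ) : ℂ := (z - a) * conj u

theorem phi_sub (a u z w : ℂ) : phi a u z - phi a u w = (z - w) * conj u := by
  unfold phi; ring

theorem norm_mul_conj_unit {u : ℂ} (hu : ‖u‖ = 1) (z : ℂ) : ‖z * conj u‖ = ‖z‖ := by
  rw [norm_mul, Complex.norm_conj, hu, mul_one]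

theorem norm_phi {a u : ℂ} (hu : ‖u‖ = 1) (z : ℂ) : ‖phi a u z‖ = ‖z - a‖ :=
  norm_mul_conj_unit hu _

theorem unit_sq {u : ℂ} (hu : ‖u‖ = 1) : u.re * u.re + u.im * u.im = 1 := by
  have := Complex.sq_norm u
  rw [hu, Complex.normSq_apply] at this
  linarith

/-- if the along-the-line coordinate of a Gaussian integer is large, so is its norm -/
theorem norm_large {a u : ℂ} (hu : ‖u‖ = 1) (c : GaussianInt) (X : ℝ) (hX : 1 ≤ X)
    (h : ‖a‖ + X ≤ (phi a u c).re) : X ≤ (c.norm : ℝ) := by
  have h1 : (phi a u c).re ≤ ‖(c : ℂ) - a‖ := by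
    rw [← norm_phi hu]; exact Complex.re_le_norm _
  have h2 : ‖(c : ℂ) - a‖ ≤ ‖(c : ℂ)‖ + ‖a‖ := norm_sub_le _ _
  have h3 : X ≤ ‖(c : ℂ)‖ := by linarith
  rw [intCast_real_norm, ← Complex.sq_norm]
  nlinarith


theorem round_close (a : ℂ) :
    ‖(((⟨round a.re, round a.im⟩ : GaussianInt)) : ℂ) - a‖ ≤ 1 := by
  have h1 := abs_sub_round a.re
  have h2 := abs_sub_round a.im
  rw [abs_le] at h1 h2
  have h3 : ‖(((⟨round a.re, round a.im⟩ : GaussianInt)) : ℂ) - a‖ ^ 2 ≤ 1 ^ 2 := by
    rw [Complex.sq_norm, Complex.normSq_apply]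
    simp only [Complex.sub_re, Complex.sub_im, re_toComplex, im_toComplex]
    nlinarith [h1.1, h1.2, h2.1, h2.2]
  exact le_of_sq_le_sq h3 zero_le_one


theorem centers_rational {a u : ℂ} (hu : ‖u‖ = 1) (g : GaussianInt) (hg : g ≠ 0) (r : ℝ)
    (hr : 0 < r) (hgu : (g : ℂ) = r * u) (K : ℕ) (T : ℝ) :
    ∃ c : GaussianInt, |(phi a u c).im| ≤ 1 ∧ T < (phi a u c).re ∧
      ∀ w : GaussianInt, w.norm ≤ K → ¬ Prime (c + w) := by
  set z0 : GaussianInt := ⟨round a.re, round a.im⟩ with hz0
  obtain ⟨Q, hQ, t0, hbar⟩ := exists_barrier_class g z0 hg K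
  set X : ℝ := 2 * (Q : ℝ) ^ 2 + 2 * K + 1 with hX
  set T' : ℝ := max T (‖a‖ + X) with hT'
  have hQr : 0 < (Q : ℝ) * r := by
    have : (0 : ℝ) < Q := by exact_mod_cast hQ
    positivity
  obtain ⟨k, hk⟩ := exists_nat_gt ((T' - (phi a u z0).re - t0 * r) / ((Q : ℝ) * r))
  rw [div_lt_iff₀ hQr] at hk
  set τ : ℤ := t0 + k * Q with hτ
  set c : GaussianInt := ⟨z0.re + τ * g.re, z0.im + τ * g.im⟩ with hc
  have hcC : (c : ℂ) = (z0 : ℂ) + (τ : ℂ) * (g : ℂ) := by
    rw [hc, toComplex_def', toComplex_def z0, toComplex_def g]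
    push_cast
    ring
  have huu : u * conj u = 1 := by
    rw [Complex.mul_conj, ← Complex.sq_norm, hu]; simp
  have hphi : phi a u c = phi a u z0 + ((τ * r : ℝ) : ℂ) := by
    unfold phi
    rw [hcC, hgu]
    push_cast
    linear_combination ((τ : ℂ) * r) * huu
  have him : (phi a u c).im = (phi a u z0).im := by
    rw [hphi]; simp
  have hre : (phi a u c).re = (phi a u z0).re + τ * r := by
    rw [hphi]; simp
  have hbig : T' < (phi a u c).re := by
    rw [hre, hτ]; push_cast; nlinarith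
  refine ⟨c, ?_, lt_of_le_of_lt (le_max_left _ _) hbig, ?_⟩
  · rw [him]
    calc |(phi a u z0).im| ≤ ‖phi a u z0‖ := Complex.abs_im_le_norm _
      _ = ‖(z0 : ℂ) - a‖ := norm_phi hu _
      _ ≤ 1 := round_close a
  · apply hbar c
    · refine ⟨k * g.re, ?_⟩
      simp only [hc, hτ]; ring
    · refine ⟨k * g.im, ?_⟩
      simp only [hc, hτ]; ring
    · have hX1 : 1 ≤ X := by
        rw [hX]
        have : (0 : ℝ) ≤ 2 * (Q : ℝ) ^ 2 + 2 * K := by positivity
        linarith
      have := norm_large hu c X hX1 (le_trans (le_max_right _ _) hbig.le)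
      have h2 : ((2 * Q ^ 2 + 2 * K : ℤ) : ℝ) < (c.norm : ℝ) := by
        push_cast; rw [hX] at this; linarith
      exact_mod_cast h2


theorem phi_re (a u z : ℂ) : (phi a u z).re = (z.re - a.re) * u.re + (z.im - a.im) * u.im := by
  unfold phi; simp [Complex.mul_re]

theorem phi_im (a u z : ℂ) : (phi a u z).im = (z.im - a.im) * u.re - (z.re - a.re) * u.im := by
  unfold phi; simp [Complex.mul_im]; ring

theorem centers_irrational {a u : ℂ} (hu : ‖u‖ = 1) (h1 : u.re ≠ 0)
    (hirr : Irrational (u.im / u.re)) (K : ℕ) (T : ℝ) :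
    ∃ c : GaussianInt, |(phi a u c).im| ≤ 1 ∧ T < (phi a u c).re ∧
      ∀ w : GaussianInt, w.norm ≤ K → ¬ Prime (c + w) := by
  obtain ⟨Q, hQ, t0, hbar⟩ := exists_barrier_class 1 0 one_ne_zero K
  have hQR : (0 : ℝ) < Q := by exact_mod_cast hQ
  have hQ1 : (1 : ℝ) ≤ Q := by exact_mod_cast hQ
  set X : ℝ := 2 * (Q : ℝ) ^ 2 + 2 * K + 1 with hX
  set T' : ℝ := max T (‖a‖ + X) with hT'
  have husq := unit_sq hu
  obtain ⟨e, he, heu⟩ : ∃ e : ℤ, (e = 1 ∨ e = -1) ∧ (e : ℝ) * u.re = |u.re| := by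
    rcases lt_or_gt_of_ne h1 with h | h
    · exact ⟨-1, Or.inr rfl, by rw [abs_of_neg h]; simp⟩
    · exact ⟨1, Or.inl rfl, by rw [abs_of_pos h]; simp⟩
  have hee : (e : ℝ) * e = 1 := by
    rcases he with h | h <;> simp [h]
  have heabs : |(e : ℝ)| = 1 := by
    rcases he with h | h <;> simp [h]
  have habs : 0 < |u.re| := abs_pos.mpr h1
  set θ : ℝ := u.im / u.re with hθ
  have hθu : θ * u.re = u.im := by rw [hθ]; field_simp
  clear_value θ
  have hirr' : Irrational ((e : ℝ) * θ) := by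
    apply hirr.intCast_mul
    rcases he with h | h <;> simp [h]
  set γ : ℝ := (-a.im * u.re - (t0 - a.re) * u.im) / (Q * u.re) with hγ
  have hγ' : γ * (Q * u.re) = -a.im * u.re - (t0 - a.re) * u.im := by
    rw [hγ]; field_simp
  clear_value γ
  set ε : ℝ := 1 / (Q * |u.re|) with hε
  have hεpos : 0 < ε := by rw [hε]; positivity
  have hεQ : (Q : ℝ) * |u.re| * ε = 1 := by rw [hε]; field_simp
  have hT1 : T ≤ T' := le_max_left _ _
  have hT2 : ‖a‖ + X ≤ T' := le_max_right _ _
  clear_value ε T'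
  obtain ⟨m', n, hm', hkr⟩ := kronecker_one_sided ((e : ℝ) * θ) hirr' γ ε hεpos
    (max 0 ⌈|T'| + 2 + |(t0 : ℝ) - a.re|⌉)
  have hm0 : (0 : ℝ) ≤ m' := by exact_mod_cast le_trans (le_max_left _ _) hm'
  have hmbig : |T'| + 2 + |(t0 : ℝ) - a.re| ≤ m' := by
    have h2 : (⌈|T'| + 2 + |(t0 : ℝ) - a.re|⌉ : ℝ) ≤ m' := by
      exact_mod_cast le_trans (le_max_right _ _) hm'
    exact le_trans (Int.le_ceil _) h2
  set c : GaussianInt := ⟨t0 + Q * (e * m'), Q * n⟩ with hc
  have hcre : (c : ℂ).re = t0 + Q * (e * m') := by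
    rw [hc, re_toComplex]; push_cast; ring
  have hcim : (c : ℂ).im = Q * n := by
    rw [hc, im_toComplex]; push_cast; ring
  have him : (phi a u c).im = -(Q * u.re) * (m' * ((e : ℝ) * θ) - n - γ) := by
    rw [phi_im, hcre, hcim]
    linear_combination ((Q : ℝ) * m' * e) * hθu - hγ'
  have himle : |(phi a u c).im| ≤ 1 := by
    rw [him, abs_mul, abs_neg, abs_mul, abs_of_pos hQR]
    have hpos : 0 < (Q : ℝ) * |u.re| := by positivity
    calc (Q : ℝ) * |u.re| * |m' * ((e : ℝ) * θ) - n - γ| ≤ (Q : ℝ) * |u.re| * ε :=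
          mul_le_mul_of_nonneg_left hkr.le hpos.le
      _ = 1 := hεQ
  have hid : (phi a u c).re * u.re = ((c : ℂ).re - a.re) + (phi a u c).im * u.im := by
    rw [phi_re, phi_im]
    linear_combination ((c : ℂ).re - a.re) * husq
  have huim : |u.im| ≤ 1 := hu ▸ Complex.abs_im_le_norm u
  have hure : |u.re| ≤ 1 := hu ▸ Complex.abs_re_le_norm u
  have hid2 : (phi a u c).re * |u.re| = e * ((t0 : ℝ) - a.re) + Q * m' + e * ((phi a u c).im * u.im) := by
    rw [← heu]
    have : (phi a u c).re * (e * u.re) = e * ((phi a u c).re * u.re) := by ring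
    rw [this, hid, hcre]
    linear_combination ((Q : ℝ) * m') * hee
  have hb1 : -|(t0 : ℝ) - a.re| ≤ e * ((t0 : ℝ) - a.re) := by
    have : |(e : ℝ) * ((t0 : ℝ) - a.re)| = |(t0 : ℝ) - a.re| := by rw [abs_mul, heabs, one_mul]
    rw [← this]; exact neg_abs_le _
  have hb2 : -1 ≤ e * ((phi a u c).im * u.im) := by
    have h3 : |(e : ℝ) * ((phi a u c).im * u.im)| ≤ 1 := by
      rw [abs_mul, heabs, one_mul, abs_mul]
      calc |(phi a u c).im| * |u.im| ≤ 1 * 1 := by
            apply mul_le_mul himle huim (abs_nonneg _) zero_le_one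
        _ = 1 := by ring
    exact (abs_le.mp h3).1
  have hb3 : (m' : ℝ) ≤ Q * m' := le_mul_of_one_le_left hm0 hQ1
  have hlow : |T'| + 1 ≤ (phi a u c).re * |u.re| := by
    rw [hid2]; linarith
  have hrepos : 0 < (phi a u c).re := by
    by_contra hneg
    rw [not_lt] at hneg
    have : (phi a u c).re * |u.re| ≤ 0 := mul_nonpos_of_nonpos_of_nonneg hneg habs.le
    have := abs_nonneg T'
    linarith
  have hbig : T' < (phi a u c).re := by
    have h4 : (phi a u c).re * |u.re| ≤ (phi a u c).re := mul_le_of_le_one_right hrepos.le hure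
    have := le_abs_self T'
    linarith
  refine ⟨c, himle, lt_of_le_of_lt hT1 hbig, ?_⟩
  apply hbar c
  · refine ⟨e * m', ?_⟩
    simp [hc]
  · refine ⟨n, ?_⟩
    simp [hc]
  · have hX1 : 1 ≤ X := by
      rw [hX]
      have : (0 : ℝ) ≤ 2 * (Q : ℝ) ^ 2 + 2 * K := by positivity
      linarith
    have := norm_large hu c X hX1 (le_trans hT2 hbig.le)
    have h2 : ((2 * Q ^ 2 + 2 * K : ℤ) : ℝ) < (c.norm : ℝ) := by
      push_cast; rw [hX] at this; linarith
    exact_mod_cast h2


/-- For every unit direction `u`, base point `a`, squared radius `K` and threshold `T` there is a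
Gaussian integer `c` within distance `1` of the line `a + ℝ u`, with coordinate along the line
larger than `T`, such that the disc of squared radius `K` about `c` has no Gaussian prime. -/
theorem centers {a u : ℂ} (hu : ‖u‖ = 1) (K : ℕ) (T : ℝ) :
    ∃ c : GaussianInt, |(phi a u c).im| ≤ 1 ∧ T < (phi a u c).re ∧
      ∀ w : GaussianInt, w.norm ≤ K → ¬ Prime (c + w) := by
  have husq := unit_sq hu
  by_cases h1 : u.re = 0
  · have him : u.im * u.im = 1 := by rw [h1] at husq; linarith
    have him' : u.im = 1 ∨ u.im = -1 := by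
      have : (u.im - 1) * (u.im + 1) = 0 := by ring_nf; linarith
      rcases mul_eq_zero.mp this with h | h
      · left; linarith
      · right; linarith
    rcases him' with h | h
    · apply centers_rational hu ⟨0, 1⟩ (by intro h0; have := congrArg Zsqrtd.im h0; simp at this)
        1 one_pos _ K T
      apply Complex.ext <;> simp [h1, h]
    · apply centers_rational hu ⟨0, -1⟩ (by intro h0; have := congrArg Zsqrtd.im h0; simp at this)
        1 one_pos _ K T
      apply Complex.ext <;> simp [h1, h]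
  · by_cases hirr : Irrational (u.im / u.re)
    · exact centers_irrational hu h1 hirr K T
    · unfold Irrational at hirr
      rw [not_not] at hirr
      obtain ⟨q, hq⟩ := hirr
      have hd : (0 : ℝ) < q.den := by exact_mod_cast q.den_pos
      have hqd : (q : ℝ) * q.den = q.num := by exact_mod_cast Rat.mul_den_eq_num q
      have hnum : (q.num : ℝ) * u.re = q.den * u.im := by
        rw [← hqd, hq]; field_simp
      rcases lt_or_gt_of_ne h1 with hneg | hpos
      · apply centers_rational hu ⟨-(q.den : ℤ), -q.num⟩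
          (by intro h0; have := congrArg Zsqrtd.re h0; simp at this)
          (-(q.den : ℝ) / u.re) (div_pos_of_neg_of_neg (by linarith) hneg) _ K T
        apply Complex.ext
        · simp; field_simp
        · simp; field_simp; linarith
      · apply centers_rational hu ⟨(q.den : ℤ), q.num⟩
          (by intro h0; have := congrArg Zsqrtd.re h0; simp at this)
          ((q.den : ℝ) / u.re) (div_pos hd hpos) _ K T
        apply Complex.ext
        · simp; field_simp
        · simp; field_simp; linarith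

end Vale.Agent.Lib.P015
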