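import Mathlib

namespace Vale.Agent.Lib.P015

/-- The graph `G_D`: vertices are the Gaussian primes (irreducible elements of `ℤ[i]`), two distinct
vertices being adjacent when their Euclidean distance in `ℂ` is at most `D`. -/
def moatGraph (D : ℝ) : SimpleGraph {z : GaussianInt // Irreducible z} where
  Adj z w := z ≠ w ∧ dist ((z : GaussianInt) : ℂ) ((w : GaussianInt) : ℂ) ≤ D
  symm := ⟨fun _ _ h => ⟨h.1.symm, by rw [dist_comm]; exact h.2⟩⟩
  loopless := ⟨fun _ h => h.1 rfl⟩

end Vale.Agent.Lib.P015
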