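import Mathlib
import Vale.Agent.Lib.P015.Centers
import Vale.Agent.Lib.P015.Defs

namespace Vale.Agent.Lib.P015

open GaussianInt Complex ComplexConjugate

theorem finite_ball (a : ℂ) (R : ℝ) : {z : GaussianInt | ‖(z : ℂ) - a‖ ≤ R}.Finite := by
  apply Set.Finite.subset
    (((Set.finite_Icc ⌊a.re - R⌋ ⌈a.re + R⌉).prod (Set.finite_Icc ⌊a.im - R⌋ ⌈a.im + R⌉)).image
      (fun q : ℤ × ℤ => (⟨q.1, q.2⟩ : GaussianInt)))
  intro z hz
  have hz' : ‖(z : ℂ) - a‖ ≤ R := hz
  have h1 : |((z : ℂ) - a).re| ≤ R := le_trans (Complex.abs_re_le_norm _) hz'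
  have h2 : |((z : ℂ) - a).im| ≤ R := le_trans (Complex.abs_im_le_norm _) hz'
  rw [Complex.sub_re, ← GaussianInt.intCast_re, abs_le] at h1
  rw [Complex.sub_im, ← GaussianInt.intCast_im, abs_le] at h2
  refine ⟨(z.re, z.im), ⟨⟨?_, ?_⟩, ⟨?_, ?_⟩⟩, rfl⟩
  · apply Int.floor_le_iff.mpr; simp only; linarith [h1.1]
  · apply Int.le_ceil_iff.mpr; simp only; linarith [h1.2]
  · apply Int.floor_le_iff.mpr; simp only; linarith [h2.1]
  · apply Int.le_ceil_iff.mpr; simp only; linarith [h2.2]

/-- a set closed under adjacency contains everything reachable from one of its points -/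
theorem mem_of_reachable {V : Type*} (H : SimpleGraph V) (A : Set V)
    (hA : ∀ x y, H.Adj x y → x ∈ A → y ∈ A) {v x : V} (h : H.Reachable v x) (hv : v ∈ A) :
    x ∈ A := by
  obtain ⟨p⟩ := h
  induction p with
  | nil => exact hv
  | cons hadj _ ih => exact ih (hA _ _ hadj hv)

/-- the gap property of a barrier centre -/
theorem gap_of_center {a u : ℂ} (hu : ‖u‖ = 1) (D W : ℝ) (K : ℕ)
    (hK : (D / 2) ^ 2 + (W + 1) ^ 2 ≤ K) (c : GaussianInt) (hc : |(phi a u c).im| ≤ 1)
    (hfree : ∀ w : GaussianInt, w.norm ≤ K → ¬ Prime (c + w))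
    (z : GaussianInt) (hz : Prime z) (hzW : |(phi a u z).im| ≤ W) :
    ¬ |(phi a u z).re - (phi a u c).re| ≤ D / 2 := by
  intro hre
  apply hfree (z - c) _ (by simpa using hz)
  have h1 : ((z - c).norm : ℝ) = ((phi a u z).re - (phi a u c).re) ^ 2
      + ((phi a u z).im - (phi a u c).im) ^ 2 := by
    rw [intCast_real_norm, ← Complex.sq_norm, toComplex_sub, ← norm_mul_conj_unit hu, ← phi_sub,
      Complex.sq_norm, Complex.normSq_apply, Complex.sub_re, Complex.sub_im]
    ring
  have h2 : ((phi a u z).re - (phi a u c).re) ^ 2 ≤ (D / 2) ^ 2 := by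
    rw [← sq_abs]
    exact pow_le_pow_left₀ (abs_nonneg _) hre 2
  have h3 : ((phi a u z).im - (phi a u c).im) ^ 2 ≤ (W + 1) ^ 2 := by
    rw [← sq_abs]
    apply pow_le_pow_left₀ (abs_nonneg _)
    calc |(phi a u z).im - (phi a u c).im| ≤ |(phi a u z).im| + |(phi a u c).im| := abs_sub _ _
      _ ≤ W + 1 := by linarith
  have h4 : ((z - c).norm : ℝ) ≤ K := by linarith
  exact_mod_cast h4


theorem phi_neg_dir (a u z : ℂ) : phi a (-u) z = - phi a u z := by
  unfold phi; simp

/-- Components of `G_D` restricted to any set of Gaussian primes contained in a strip are finite. -/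
theorem strip_component_finite {a u : ℂ} (hu : ‖u‖ = 1) (D W : ℝ)
    (S : Set {z : GaussianInt // Irreducible z})
    (hS : ∀ z ∈ S, |(phi a u ((z : GaussianInt) : ℂ)).im| ≤ W)
    (C : ((moatGraph D).induce S).ConnectedComponent) : C.supp.Finite := by
  obtain ⟨v, rfl⟩ := C.exists_rep
  obtain ⟨K, hK⟩ := exists_nat_ge ((D / 2) ^ 2 + (W + 1) ^ 2)
  let f : S → ℝ := fun x => (phi a u ((x.1 : GaussianInt) : ℂ)).re
  obtain ⟨c1, hc1, hT1, hfree1⟩ := centers (a := a) hu K (f v)
  have hu' : ‖-u‖ = 1 := by rw [norm_neg]; exact hu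
  obtain ⟨c2, hc2, hT2, hfree2⟩ := centers (a := a) hu' K (-(f v))
  rw [phi_neg_dir] at hc2 hT2
  simp only [Complex.neg_im, abs_neg, Complex.neg_re] at hc2 hT2
  have hprime : ∀ x : S, Prime (x.1 : GaussianInt) := fun x => irreducible_iff_prime.mp x.1.2
  have gap1 : ∀ x : S, ¬ |f x - (phi a u c1).re| ≤ D / 2 := fun x =>
    gap_of_center hu D W K hK c1 hc1 hfree1 _ (hprime x) (hS _ x.2)
  have gap2 : ∀ x : S, ¬ |f x - (phi a u c2).re| ≤ D / 2 := fun x =>
    gap_of_center hu D W K hK c2 hc2 hfree2 _ (hprime x) (hS _ x.2)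
  let A : Set S := {x | (phi a u c2).re < f x ∧ f x < (phi a u c1).re}
  have hvA : v ∈ A := ⟨by linarith, hT1⟩
  have hclosed : ∀ x y, ((moatGraph D).induce S).Adj x y → x ∈ A → y ∈ A := by
    intro x y hadj hx
    have hd : dist ((x.1 : GaussianInt) : ℂ) ((y.1 : GaussianInt) : ℂ) ≤ D := hadj.2
    have hD : 0 ≤ D := le_trans dist_nonneg hd
    have hf : |f x - f y| ≤ D := by
      have h1 : f x - f y = (phi a u ((x.1 : GaussianInt) : ℂ) - phi a u ((y.1 : GaussianInt) : ℂ)).re := by
        simp [f]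
      rw [h1, phi_sub]
      calc _ ≤ ‖(((x.1 : GaussianInt) : ℂ) - ((y.1 : GaussianInt) : ℂ)) * conj u‖ :=
            Complex.abs_re_le_norm _
        _ = ‖((x.1 : GaussianInt) : ℂ) - ((y.1 : GaussianInt) : ℂ)‖ := norm_mul_conj_unit hu _
        _ ≤ D := by rw [← dist_eq_norm]; exact hd
    rw [abs_le] at hf
    have g1x := gap1 x
    have g1y := gap1 y
    have g2x := gap2 x
    have g2y := gap2 y
    rw [abs_le, not_and_or, not_le, not_le] at g1x g1y g2x g2y
    obtain ⟨hx1, hx2⟩ := hx
    constructor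
    · by_contra hcon
      rw [not_lt] at hcon
      rcases g2x with h | h <;> rcases g2y with h' | h' <;> linarith [hf.1, hf.2]
    · by_contra hcon
      rw [not_lt] at hcon
      rcases g1x with h | h <;> rcases g1y with h' | h' <;> linarith [hf.1, hf.2]
  have hsub : (((moatGraph D).induce S).connectedComponentMk v).supp ⊆ A := by
    intro x hx
    have hx' : ((moatGraph D).induce S).Reachable x v := by
      simpa [SimpleGraph.ConnectedComponent.mem_supp_iff] using hx
    exact mem_of_reachable _ A hclosed hx'.symm hvA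
  apply Set.Finite.subset _ hsub
  set R : ℝ := |(phi a u c1).re| + |(phi a u c2).re| + |W| with hR
  have hfin := finite_ball a R
  have hinj : Function.Injective (fun x : S => (x.1 : GaussianInt)) := by
    intro x y hxy
    exact Subtype.ext (Subtype.ext hxy)
  apply Set.Finite.subset (hfin.preimage (hinj.injOn))
  intro x hx
  obtain ⟨hx1, hx2⟩ := hx
  show ‖((x.1 : GaussianInt) : ℂ) - a‖ ≤ R
  rw [← norm_phi hu]
  calc ‖phi a u ((x.1 : GaussianInt) : ℂ)‖ ≤ |(phi a u ((x.1 : GaussianInt) : ℂ)).re|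
        + |(phi a u ((x.1 : GaussianInt) : ℂ)).im| := Complex.norm_le_abs_re_add_abs_im _
    _ ≤ (|(phi a u c1).re| + |(phi a u c2).re|) + |W| := by
        apply add_le_add
        · have e1 := le_abs_self (phi a u c1).re
          have e2 := neg_abs_le (phi a u c2).re
          have e3 := abs_nonneg (phi a u c1).re
          have e4 := abs_nonneg (phi a u c2).re
          rw [abs_le]
          constructor
          · have : (phi a u c2).re < (phi a u ((x.1 : GaussianInt) : ℂ)).re := hx1
            linarith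
          · have : (phi a u ((x.1 : GaussianInt) : ℂ)).re < (phi a u c1).re := hx2
            linarith
        · exact le_trans (hS _ x.2) (le_abs_self W)

end Vale.Agent.Lib.P015
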