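import Mathlib
import Vale.Agent.Lib.P015.NotPrime

namespace Vale.Agent.Lib.P015

open GaussianInt

/-- the moduli `(i P)^2 + 1` -/
def wmod (P i : ℕ) : ℕ := (i * P) ^ 2 + 1

theorem wmod_coprime (K : ℕ) {i j : ℕ} (hi : i ∈ Finset.Icc 1 K) (hj : j ∈ Finset.Icc 1 K)
    (hij : i ≠ j) :
    Nat.Coprime (wmod (primorial (2 * K)) i) (wmod (primorial (2 * K)) j) := by
  rw [Finset.mem_Icc] at hi hj
  apply Nat.coprime_of_dvd
  intro p hp hpi hpj
  set P := primorial (2 * K) with hP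
  have hpI : Prime (p : ℤ) := Nat.prime_iff_prime_int.mp hp
  have h1 : (p : ℤ) ∣ ((i : ℤ) * P) ^ 2 + 1 := by
    have : ((wmod P i : ℕ) : ℤ) = ((i : ℤ) * P) ^ 2 + 1 := by simp [wmod]
    rw [← this]; exact_mod_cast hpi
  have h2 : (p : ℤ) ∣ ((j : ℤ) * P) ^ 2 + 1 := by
    have : ((wmod P j : ℕ) : ℤ) = ((j : ℤ) * P) ^ 2 + 1 := by simp [wmod]
    rw [← this]; exact_mod_cast hpj
  have h3 : (p : ℤ) ∣ ((P : ℤ) * P) * (((i : ℤ) - j) * ((i : ℤ) + j)) := by
    have := dvd_sub h1 h2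
    have e : ((i : ℤ) * P) ^ 2 + 1 - (((j : ℤ) * P) ^ 2 + 1)
        = ((P : ℤ) * P) * (((i : ℤ) - j) * ((i : ℤ) + j)) := by ring
    rwa [e] at this
  have hsmall : ∀ n : ℤ, n ≠ 0 → |n| ≤ 2 * K → (p : ℤ) ∣ n → p ∣ P := by
    intro n hn0 hn hdvd
    rw [hP, hp.dvd_primorial_iff]
    have h4 : (p : ℤ) ≤ |n| := Int.le_of_dvd (abs_pos.mpr hn0) ((dvd_abs _ _).mpr hdvd)
    have : (p : ℤ) ≤ 2 * K := le_trans h4 hn
    exact_mod_cast this
  have hpP : p ∣ P := by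
    rcases hpI.dvd_or_dvd h3 with h | h
    · rcases hpI.dvd_or_dvd h with h' | h' <;> exact_mod_cast h'
    · rcases hpI.dvd_or_dvd h with h' | h'
      · apply hsmall _ _ _ h'
        · intro h0; apply hij; have : (i : ℤ) = j := by linarith
          exact_mod_cast this
        · rw [abs_le]; constructor <;> omega
      · apply hsmall _ _ _ h'
        · have : (0 : ℤ) < (i : ℤ) + j := by omega
          omega
        · rw [abs_le]; constructor <;> omega
  have h5 : (p : ℤ) ∣ ((i : ℤ) * P) ^ 2 := by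
    have : (p : ℤ) ∣ (P : ℤ) := by exact_mod_cast hpP
    exact Dvd.dvd.pow (Dvd.dvd.mul_left this _) (by norm_num)
  have h6 : (p : ℤ) ∣ 1 := (dvd_add_right h5).mp h1
  have := Int.le_of_dvd one_pos h6
  have := hp.two_le
  omega

theorem wmod_le (K i : ℕ) (hi : i ≤ K) : wmod (primorial (2 * K)) i ≤ 2 ^ (10 * K + 1) := by
  have h1 : primorial (2 * K) ≤ 4 ^ (2 * K) := primorial_le_four_pow _
  have h2 : K ≤ 2 ^ K := Nat.lt_two_pow_self.le
  have h3 : i * primorial (2 * K) ≤ 2 ^ (5 * K) := by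
    calc i * primorial (2 * K) ≤ 2 ^ K * 4 ^ (2 * K) := Nat.mul_le_mul (le_trans hi h2) h1
      _ = 2 ^ (5 * K) := by
        have : (4 : ℕ) = 2 ^ 2 := by norm_num
        rw [this, ← pow_mul, ← pow_add]; congr 1; ring
  unfold wmod
  calc (i * primorial (2 * K)) ^ 2 + 1 ≤ (2 ^ (5 * K)) ^ 2 + 1 := by
        apply Nat.add_le_add_right; exact Nat.pow_le_pow_left h3 2
    _ = 2 ^ (10 * K) + 1 := by rw [← pow_mul]; congr 2; ring
    _ ≤ 2 ^ (10 * K) + 2 ^ (10 * K) := by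
        apply Nat.add_le_add_left; exact Nat.one_le_two_pow
    _ = 2 ^ (10 * K + 1) := by rw [pow_succ]; ring

theorem wall_aux (m Q x y : ℤ) (h0 : 0 < m) (h1 : m ≤ Q) (h2 : 2 * Q ≤ x) :
    m ^ 2 < x * x + y * y := by
  have h3 : m ^ 2 ≤ Q ^ 2 := pow_le_pow_left₀ h0.le h1 2
  have h4 : Q ^ 2 < x * x := by nlinarith
  nlinarith [mul_self_nonneg y]

set_option maxHeartbeats 400000 in
/-- An explicit composite wall on the real axis. -/
theorem exists_wall (L W : ℕ) :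
    ∃ t : ℤ, (W : ℤ) < t ∧ t + L ≤ 2 ^ (13 * ((L + 1) * (2 * W + 1)) ^ 2) ∧
      ∀ x y : ℤ, t ≤ x → x ≤ t + L → -(W : ℤ) ≤ y → y ≤ W → ¬ Prime (⟨x, y⟩ : GaussianInt) := by
  classical
  set K : ℕ := (L + 1) * (2 * W + 1) with hK
  have hK1 : 1 ≤ K := by rw [hK]; exact Nat.mul_pos (by omega) (by omega)
  have hKW : W < K := by rw [hK]; nlinarith
  have hKL : L < K := by rw [hK]; nlinarith
  set P : ℕ := primorial (2 * K) with hP
  have hPpos : 0 < P := primorial_pos _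
  let m : ℕ → ℕ := fun i => wmod P i
  have hmpos : ∀ i, 0 < m i := fun i => Nat.succ_pos _
  let c : ℕ → ℤ := fun i =>
    (((i - 1) / (2 * W + 1) : ℕ) : ℤ) + ((i * P : ℕ) : ℤ) * ((((i - 1) % (2 * W + 1) : ℕ) : ℤ) - W)
  let r : ℕ → ℕ := fun i => ((-(c i)) % (m i : ℤ)).toNat
  have hs : ∀ i ∈ Finset.Icc 1 K, m i ≠ 0 := fun i _ => (hmpos i).ne'
  have hpp : Set.Pairwise (Finset.Icc 1 K : Set ℕ) (Function.onFun Nat.Coprime m) := by
    intro i hi j hj hij
    exact wmod_coprime K (Finset.mem_coe.mp hi) (Finset.mem_coe.mp hj) hij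
  set t0 : ℕ := (Nat.chineseRemainderOfFinset r m (Finset.Icc 1 K) hs hpp : ℕ) with ht0def
  have ht0 : ∀ i ∈ Finset.Icc 1 K, t0 ≡ r i [MOD m i] :=
    (Nat.chineseRemainderOfFinset r m (Finset.Icc 1 K) hs hpp).2
  set Q : ℕ := ∏ i ∈ Finset.Icc 1 K, m i with hQ
  have ht0lt : t0 < Q := Nat.chineseRemainderOfFinset_lt_prod r m hs hpp
  have hQpos : 0 < Q := Finset.prod_pos (fun i _ => hmpos i)
  have hmQ : ∀ i ∈ Finset.Icc 1 K, m i ∣ Q := fun i hi => Finset.dvd_prod_of_mem m hi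
  have hmleQ : ∀ i ∈ Finset.Icc 1 K, m i ≤ Q := fun i hi => Nat.le_of_dvd hQpos (hmQ i hi)
  have hQle : Q ≤ 2 ^ (11 * K ^ 2) := by
    calc Q ≤ ∏ _i ∈ Finset.Icc 1 K, 2 ^ (10 * K + 1) := by
          apply Finset.prod_le_prod' 
          intro i hi
          exact wmod_le K i (Finset.mem_Icc.mp hi).2
      _ = 2 ^ ((10 * K + 1) * K) := by
          rw [Finset.prod_const, Nat.card_Icc, ← pow_mul]; simp
      _ ≤ 2 ^ (11 * K ^ 2) := by
          apply Nat.pow_le_pow_right (by norm_num)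
          nlinarith
  have hKQ : K < Q := by
    have h1 : m K ≤ Q := hmleQ K (Finset.mem_Icc.mpr ⟨hK1, le_refl _⟩)
    have h2 : K < m K := by
      show K < (K * P) ^ 2 + 1
      have : K ≤ K * P := Nat.le_mul_of_pos_right K hPpos
      nlinarith
    omega
  refine ⟨(t0 : ℤ) + 2 * Q, ?_, ?_, ?_⟩
  · have : (W : ℤ) < Q := by exact_mod_cast lt_trans hKW hKQ
    have h0 : (0 : ℤ) ≤ t0 := by positivity
    linarith
  · have h1 : t0 + 2 * Q + L ≤ 2 ^ (13 * K ^ 2) := by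
      have h2 : L < Q := lt_trans hKL hKQ
      calc t0 + 2 * Q + L ≤ 4 * Q := by omega
        _ ≤ 4 * 2 ^ (11 * K ^ 2) := Nat.mul_le_mul_left 4 hQle
        _ = 2 ^ (11 * K ^ 2 + 2) := by rw [pow_add]; ring
        _ ≤ 2 ^ (13 * K ^ 2) := by
          apply Nat.pow_le_pow_right (by norm_num)
          nlinarith
    exact_mod_cast h1
  · intro x y hx1 hx2 hy1 hy2
    obtain ⟨a, ha⟩ : ∃ a : ℕ, (a : ℤ) = x - ((t0 : ℤ) + 2 * Q) := ⟨(x - ((t0 : ℤ) + 2 * Q)).toNat, by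
      rw [Int.toNat_of_nonneg]; linarith⟩
    obtain ⟨b, hb⟩ : ∃ b : ℕ, (b : ℤ) = y + W := ⟨(y + W).toNat, by
      rw [Int.toNat_of_nonneg]; linarith⟩
    have haL : a ≤ L := by
      have : (a : ℤ) ≤ L := by rw [ha]; linarith
      exact_mod_cast this
    have hbW : b < 2 * W + 1 := by
      have : (b : ℤ) < 2 * W + 1 := by rw [hb]; linarith
      exact_mod_cast this
    set i : ℕ := a * (2 * W + 1) + b + 1 with hi
    have hiK : i ∈ Finset.Icc 1 K := by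
      rw [Finset.mem_Icc]
      refine ⟨by omega, ?_⟩
      rw [hi, hK]
      nlinarith
    have hdiv : (i - 1) / (2 * W + 1) = a := by
      have : i - 1 = b + (2 * W + 1) * a := by rw [hi]; simp; ring
      rw [this, Nat.add_mul_div_left _ _ (by omega), Nat.div_eq_of_lt hbW]; simp
    have hmod : (i - 1) % (2 * W + 1) = b := by
      have : i - 1 = b + (2 * W + 1) * a := by rw [hi]; simp; ring
      rw [this, Nat.add_mul_mod_self_left, Nat.mod_eq_of_lt hbW]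
    have hc : c i = (a : ℤ) + ((i * P : ℕ) : ℤ) * y := by
      show (((i - 1) / (2 * W + 1) : ℕ) : ℤ)
        + ((i * P : ℕ) : ℤ) * ((((i - 1) % (2 * W + 1) : ℕ) : ℤ) - W) = _
      rw [hdiv, hmod, hb]; ring
    have hmI : (0 : ℤ) < (m i : ℤ) := by exact_mod_cast hmpos i
    have hcong : (m i : ℤ) ∣ (t0 : ℤ) + c i := by
      have h1 : (t0 : ℤ) ≡ (r i : ℤ) [ZMOD (m i : ℤ)] := (Int.natCast_modEq_iff).mpr (ht0 i hiK)
      have h2 : (r i : ℤ) = (-(c i)) % (m i : ℤ) :=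
        Int.toNat_of_nonneg (Int.emod_nonneg _ hmI.ne')
      have h3 : (t0 : ℤ) ≡ -(c i) [ZMOD (m i : ℤ)] := by
        rw [h2] at h1; exact h1.trans (Int.mod_modEq _ _)
      have := h3.symm.dvd
      simpa using this
    set A : ℤ := ((i * P : ℕ) : ℤ) with hA
    have hmA : (m i : ℤ) = A ^ 2 + 1 := by
      show ((wmod P i : ℕ) : ℤ) = _
      simp [wmod, hA]
    have hlin : (m i : ℤ) ∣ x + A * y := by
      have e : x + A * y = ((t0 : ℤ) + c i) + 2 * Q := by rw [hc]; linarith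
      rw [e]
      apply dvd_add hcong
      apply Dvd.dvd.mul_left
      exact_mod_cast hmQ i hiK
    have hnorm : (m i : ℤ) ∣ (⟨x, y⟩ : GaussianInt).norm := by
      have e : (⟨x, y⟩ : GaussianInt).norm = (x + A * y) * (x - A * y) + (A ^ 2 + 1) * (y * y) := by
        rw [Zsqrtd.norm_def]; ring
      rw [e]
      apply dvd_add (Dvd.dvd.mul_right hlin _)
      rw [← hmA]; exact dvd_mul_right _ _
    have hm1 : (1 : ℤ) < (m i : ℤ) := by
      rw [hmA]
      have hi1 : 1 ≤ i * P := Nat.mul_pos (by omega) hPpos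
      have : (1 : ℤ) ≤ A := by rw [hA]; exact_mod_cast hi1
      nlinarith
    apply not_prime_of_dvd_norm hm1 hnorm
    have hmQ' : (m i : ℤ) ≤ Q := by exact_mod_cast hmleQ i hiK
    have hx3 : 2 * (Q : ℤ) ≤ x := by
      have h0 : (0 : ℤ) ≤ t0 := by positivity
      linarith
    have hQ0 : (0 : ℤ) < Q := by exact_mod_cast hQpos
    have e : (⟨x, y⟩ : GaussianInt).norm = x * x + y * y := by
      rw [Zsqrtd.norm_def]; ring
    rw [e]
    exact wall_aux _ _ x y hmI hmQ' hx3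

end Vale.Agent.Lib.P015
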